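import Vale.Agent.P014U.All0
import Vale.Agent.P014T.All

/-! # P014U: the closed form -/

namespace Vale.Agent.P014U.Top

/-- **one half of the formula at all primes, in analytic rank at most one** -/
theorem bsdi_all : BSDI :=
  bsdi_of P014T.Top.bsde P014T.Top.md_all P014T.Top.lgu_all P014T.Nv.nvd_all

end Vale.Agent.P014U.Top
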