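import Vale.Agent.P014U.Base
import Vale.Agent.P022K.G2.Tam
import Vale.Agent.P004S.Bas

/-! # P014U: tame generators of the inertia groups (helper7) -/

set_option linter.all false

open NumberField Finset

noncomputable section

namespace Vale.Agent.P014U

open Vale.Agent.P022 (Qb GQ)
open Vale.Agent.P027M.S (Inert)
open Vale.Agent.P022E.GW (Ov)
open Vale.Agent.P022K.G2 (ka rt zt rt_pow zt_prim ka_spec)

variable [Pp] {l : ℕ} {P : Ideal (𝓞 Qb)} {τ : GQ}

/-- `τ` is an element of the inertia group which moves the chosen root of `l` -/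
def Gn (l : ℕ) (P : Ideal (𝓞 Qb)) (τ : GQ) : Prop := Inert P τ ∧ ka pp l τ = 1

theorem ex_gn (o : Ov l P) (h : l ≠ pp) : ∃ τ, Gn l P τ := P022K.G2.ex_tau o h

/-- the action on the roots of unity of order `l` is not a `pp`-th power -/
theorem Gn.pow (t : Gn l P τ) (o : Ov l P) {m : ℕ} (d : l = pp * m + 1) {ζ : Qb}
    (h : IsPrimitiveRoot ζ l) {a : ℕ} (e : τ ζ = ζ ^ a) : (a : ZMod l) ^ m ≠ 1 := fun k => by
  have := o.2.1
  have := NeZero.mk o.1.ne_zero
  have := NeZero.mk pp_ne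
  let π := Ideal.Quotient.mk P
  have nz (n : ℕ) (h : (n : 𝓞 Qb ⧸ P) = 0) : l ∣ n := by
    exact_mod_cast P004S.ov_dvd o (a := n) (by
      rw [Int.cast_natCast, ← Ideal.Quotient.eq_zero_iff_mem, map_natCast, h])
  have l0 : (l : 𝓞 Qb ⧸ P) = 0 := by
    rw [← map_natCast π]; exact Ideal.Quotient.eq_zero_iff_mem.2 o.2.2
  let z := h.toInteger
  have hz : IsPrimitiveRoot z l := h.toInteger_isPrimitiveRoot
  have z1 : π z = 1 := by
    obtain ⟨r, hr⟩ := exists_add_pow_prime_eq o.1 (π z - 1) 1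
    rw [sub_add_cancel, ← map_pow, hz.pow_eq_one, map_one, l0, one_pow] at hr
    exact sub_eq_zero.1 (pow_eq_zero_iff o.1.ne_zero |>.1 (by linear_combination -hr))
  let u (j : ℕ) := ∑ i ∈ range j, z ^ i
  have u1 j : π (u j) = j := by simp [u, z1]
  have u2 j : (1 - ζ) * (u j : Qb) = 1 - ζ ^ j := by
    rw [← mul_neg_geom_sum]; simp only [u, map_sum, map_pow]; rfl
  have ne : 1 - ζ ≠ 0 := sub_ne_zero.2 (h.ne_one o.1.one_lt).symm
  have p1 : (rt pp l / (1 - ζ) ^ m) ^ pp = (∏ j ∈ range (pp * m), u (j + 1) : 𝓞 Qb) := by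
    rw [div_pow, rt_pow, ← pow_mul, div_eq_iff (pow_ne_zero _ ne), d, Nat.cast_succ,
      ← IsPrimitiveRoot.prod_one_sub_pow_eq_order (n := pp * m) (μ := ζ) (by rwa [← d]), mul_comm m]
    simp only [← u2, prod_mul_distrib, prod_const, card_range, map_prod, mul_comm]
  let y : 𝓞 Qb := ⟨rt pp l / (1 - ζ) ^ m, IsIntegral.of_pow pp_pos (by rw [p1]; exact RingOfIntegers.isIntegral_coe _)⟩
  have y0 : π y ≠ 0 := fun c => by
    have := congrArg π (show y ^ pp = _ from RingOfIntegers.ext p1)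
    rw [map_pow, c, zero_pow pp_ne, map_prod, eq_comm, prod_eq_zero_iff] at this
    obtain ⟨j, a, b⟩ := this
    exact absurd (Nat.le_of_dvd j.succ_pos (nz _ (u1 _ ▸ b))) (by have := mem_range.1 a; omega)
  have q : u a ^ m * τ • y = (zt_prim pp).toInteger * y := RingOfIntegers.ext (by
    have := Fact.mk one_lt
    have n' : 1 - ζ ^ a ≠ 0 := by rw [← e, ← map_one τ, ← map_sub]; exact (map_ne_zero τ).2 ne
    show (u a : Qb) ^ m * τ (rt pp l / (1 - ζ) ^ m) = zt pp * (rt pp l / (1 - ζ) ^ m)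
    rw [map_div₀, ka_spec (map_natCast τ l), t.2, ZMod.val_one, pow_one, map_pow, map_sub, map_one, e,
      ← u2, mul_pow]
    rw [← u2] at n'
    have := right_ne_zero_of_mul n'
    field_simp)
  have q2 := congrArg π q
  rw [map_mul, map_mul, map_pow, u1, show π (τ • y) = π y from Ideal.Quotient.eq.2 (t.1 y)] at q2
  obtain ⟨c, hc⟩ := (ZMod.intCast_eq_intCast_iff_dvd_sub (a ^ m) 1 l).1 (by simpa using k)
  have q3 := congrArg (Int.cast : ℤ → 𝓞 Qb ⧸ P) hc
  simp only [Int.cast_sub, Int.cast_one, Int.cast_pow, Int.cast_natCast, Int.cast_mul, l0, zero_mul] at q3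
  refine (zt_prim pp).toInteger_isPrimitiveRoot.ne_one one_lt (P022E.GW.Unr.root_inj o.2.1 (m := pp)
    (fun c => ?_) (zt_prim pp).toInteger_isPrimitiveRoot.pow_eq_one (one_pow _)
    (Ideal.Quotient.eq.1 ?_))
  · have := (Nat.prime_dvd_prime_iff_eq o.1 pp_prime).1
      (nz pp (by rw [← map_natCast π]; exact Ideal.Quotient.eq_zero_iff_mem.2 c))
    exact one_lt.ne' (Nat.dvd_one.1 ((Nat.dvd_add_right ⟨m, rfl⟩).1 (d ▸ this ▸ dvd_rfl)))
  · rw [← mul_right_cancel₀ y0 q2, map_one]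
    linear_combination -q3

end Vale.Agent.P014U
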