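import Mathlib

/-! # P014U: the odd prime -/

set_option linter.all false

namespace Vale.Agent.P014U

/-- an odd prime number -/
class Pp where
  pp : ℕ
  prime : pp.Prime
  odd : pp ≠ 2

export Pp (pp)

variable [Pp]

instance fact_pp : Fact pp.Prime := ⟨Pp.prime⟩

theorem pp_prime : pp.Prime := Pp.prime

theorem pp_ne_two : pp ≠ 2 := Pp.odd

theorem pp_odd : Odd pp := pp_prime.odd_of_ne_two pp_ne_two

theorem two_lt : 2 < pp := lt_of_le_of_ne pp_prime.two_le pp_ne_two.symm

theorem one_lt : 1 < pp := pp_prime.one_lt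

theorem pp_pos : 0 < pp := pp_prime.pos

theorem pp_ne : pp ≠ 0 := pp_prime.ne_zero

theorem cop_two : Nat.Coprime 2 pp := (Nat.coprime_primes Nat.prime_two pp_prime).2 pp_ne_two.symm

theorem cop_two_pow (n : ℕ) : Nat.Coprime 2 (pp ^ n) := cop_two.pow_right n

theorem not_dvd_two : ¬ pp ∣ 2 := fun h => absurd (Nat.le_of_dvd two_pos h) (not_le.2 two_lt)

theorem norm_two : ‖(2 : ℚ_[pp])‖ = 1 := by
  have := (Padic.norm_natCast_eq_one_iff (p := pp) (n := 2)).2 cop_two.symm
  simpa using this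

theorem unit_two : IsUnit (2 : ℤ_[pp]) := PadicInt.isUnit_iff.2 (by
  have := (PadicInt.norm_natCast_eq_one_iff (p := pp) (n := 2)).2 cop_two.symm
  simpa using this)

theorem unit_two' (n : ℕ) : IsUnit (2 : ZMod (pp ^ n)) := by
  simpa using (ZMod.isUnit_iff_coprime 2 (pp ^ n)).2 (cop_two_pow n)

theorem two_ne : (2 : ZMod pp) ≠ 0 := fun h =>
  not_dvd_two ((ZMod.natCast_eq_zero_iff 2 pp).1 (by simpa using h))

/-- two is invertible on elements of order a power of `pp` -/
theorem half {A : Type} [AddCommGroup A] {x : A} {k : ℕ} (h : pp ^ k • x = 0) (e : 2 • x = 0) :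
    x = 0 := by
  have := Nat.dvd_gcd (addOrderOf_dvd_of_nsmul_eq_zero e) (addOrderOf_dvd_of_nsmul_eq_zero h)
  rw [cop_two_pow k, Nat.dvd_one] at this
  exact AddMonoid.addOrderOf_eq_one_iff.1 this

end Vale.Agent.P014U
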