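import Vale.Agent.P014T.Top
import Vale.Agent.P014U.Bt.Ac
import Vale.Agent.P014U.Ba.Lev
import Vale.Agent.P014U.Cp.Defs
import Vale.Agent.P014U.Iv.Inv
import Vale.Agent.P014U.Lc.Fx
import Vale.Agent.P014U.Rb.Chi

/-! # P014U: the top level at an odd prime (words and rows) -/

set_option autoImplicit false
set_option linter.all false

open NumberField Matrix UpperHalfPlane
open scoped Classical

noncomputable section

namespace Vale.Agent.P014U.Top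

export Vale.Agent.P014T.Top (sI El Ae Nf Ar Pm w0 nq cS MODN)

open Vale.Agent.P014 (GlobalMinimal IsHasseWeil realPeriod torsionOrder shaPrimary tamagawaProduct)
open Vale.Agent.P014T (IsBasisModTorsion regulator)
open Vale.Agent.P022 (Qb GQ IsConj)
open Vale.Agent.P022K.G2 (In)
open Vale.Agent.P027M.S (Inert)
open Vale.Agent.P022D.W (dec)
open Vale.Agent.P022E.GW (Ov Fb)
open X4S.Ga (K)
open Vale.Agent.P004F (hq M2)
open X4F.Rc (mq)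
open P004M.TE (Pt ga al)
open X4M.TE (mt)
open P004N (RN IsEll cE)
open P004N.T8 (inc)
open P004N.H169 (IsLh)
open P027M.K (TM)
open Bt (dd Z0 Gp)
open P014T.Wm (Fx)
open P014T.Lc (Wq tm np)
open Lc (Lk)
open Ah (Ind am)
open P014T.Sm (Md)

variable [Pp]

/-- `S` contains two, the prime and the bad primes of the equation -/
def Bd (W : WeierstrassCurve ℤ) (S : Finset ℕ) : Prop :=
  Pm S ∧ ∀ p : ℕ, p.Prime → (p : ℤ) ∣ 2 * pp * W.Δ → p ∈ S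

/-- **the discrepancy**: `v` is the valuation of the quotient of the two sides -/
def Dis (W : WeierstrassCurve ℤ) (S : Finset ℕ) (r : ℕ) (v : ℤ) : Prop :=
  ∃ (L : ℂ → ℂ) (Q : Fin r → (Wq W).toAffine.Point) (ρ : ℚ),
    IsLh (inc (∏ p ∈ S, p) (cE (Wq W))) L ∧ analyticOrderAt L 1 = r ∧
    IsBasisModTorsion (Wq W) Q ∧ Finite (shaPrimary (Wq W) pp) ∧ ρ ≠ 0 ∧ padicValRat pp ρ = v ∧
    iteratedDeriv r L 1 / (r.factorial : ℂ) = (ρ : ℂ) * ((realPeriod (Wq W) * regulator (Wq W) Q *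
      (Nat.card (shaPrimary (Wq W) pp) : ℝ) * (∏ p ∈ S, (tm (Wq W) p * np W p / p : ℝ)) /
      (torsionOrder (Wq W) : ℝ) ^ 2 : ℝ) : ℂ)

/-- the same for the short model and some `S` -/
def Di (A B : ℤ) (r : ℕ) (v : ℤ) : Prop := ∃ S, Bd (sI A B) S ∧ Dis (sI A B) S r v

/-! ## local-global compatibility -/

/-- no invariants under inertia -/
def No (r : GQ → M2 ℤ_[pp]) (p : ℕ) : Prop :=
  ∀ P, Ov p P → ∀ v : Fin 2 → ℤ_[pp], (∀ g, Inert P g → r g *ᵥ v = v) → v = 0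

/-- unramified with trace `t` -/
def Gd (r : GQ → M2 ℤ_[pp]) (t : ℤ) (p : ℕ) : Prop :=
  ∀ P, Ov p P → (∀ g, Inert P g → r g = 1) ∧ ∀ φ, Fb p P φ → (r φ).trace = t

/-- ramified, the Frobenius acts by `t p` on the invariants -/
def Mu (r : GQ → M2 ℤ_[pp]) (t : ℤ) (p : ℕ) : Prop :=
  ∀ P, Ov p P → (∃ g, Inert P g ∧ r g ≠ 1) ∧ ∀ v : Fin 2 → ℤ_[pp], (∀ g, Inert P g → r g *ᵥ v = v) →
    ∀ φ, Fb p P φ → r φ *ᵥ v = (t * p : ℤ) • v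

/-- the Euler factor at `p` divides the one of the form -/
def Lp {A B : ℤ} (h : El A B) (N : ℕ) (a : ℕ → ℤ) (p : ℕ) : Prop :=
  No (mt (hq h)) p ∨ ¬ p ∣ N ∧ Gd (mt (hq h)) (a p) p ∨ p ∣ N ∧ Mu (mt (hq h)) (a p) p

/-- the same at all primes but two and `pp` -/
def Lg {A B : ℤ} (h : El A B) (N : ℕ) (a : ℕ → ℤ) : Prop :=
  ∀ p : ℕ, p.Prime → p ≠ pp → p ≠ 2 → Lp h N a p

/-- `e` is the value of the Euler factor of the representation at two -/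
def E2 {A B : ℤ} (h : El A B) (e : ℤ) : Prop :=
  No (mt (hq h)) 2 ∧ e = 1 ∨ (∃ t, Gd (mt (hq h)) t 2 ∧ e = 3 - t) ∨
    ∃ t, Mu (mt (hq h)) t 2 ∧ t ^ 2 = 1 ∧ e = 2 * t - 1

/-! ## zeta elements -/

/-- the order of the level `j` part -/
def cz (A B : ℤ) (T : Finset ℕ) (c : GQ) (j : ℕ) : ℕ := Nat.card (Ba.Tk (Z0 A B T c) j)

/-- the order of the group generated by the coboundary and the class at level `j` -/
def sg {A B : ℤ} (g : X4M.TE.Tm A B) (n j : ℕ) (z : GQ → Pt A B) : ℕ :=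
  P014T.Ba.sp (dd A B (TM.cp j g)) (pp ^ (n - j) • z)

section

variable {A B : ℤ} (h : El A B)

/-- the local pairing at `P` with `z` is `μ` times the logarithm -/
def Rc (P : Ideal (𝓞 Qb)) (lg : Fx A B (dec P) →+ K) (m n : ℕ) (z : GQ → Pt A B) (μ : K) : Prop :=
  ∀ (y : Fx A B (dec P)) (y' : Pt A B), pp ^ n • y' = pp ^ m • y.1 →
    Iv.iv P (Cp.cp (Ki.wp (hq h)) n (dd A B y') z) = mq (lg (pp ^ m • y) * μ / (pp : K) ^ n)

/-- **the zeta element at level `n`** -/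
structure Zt (S : Finset ℕ) (c : GQ) (P : Ideal (𝓞 Qb)) (ι : Qb →+* ℂ_[pp])
    (lg : Fx A B (dec P) →+ K) (σ : ℤ_[pp]) (α : ℚ_[pp]) (ρ : ℚ) (m n : ℕ) (z : GQ → Pt A B) :
    Prop where
  mem : z ∈ Z0 A B S c
  tor : pp ^ n • z = 0
  r0 : ∃ u : ℤ_[pp]ˣ, Rc h P lg m n z ((u * σ : ℤ_[pp]) * ρ)
  r1 : ρ = 0 → ∀ (l : ℕ) W χ, Rb.Lx l n W χ → l ∉ S → m < l → W (-1) = 0 → (∀ p ∈ S, W p = 0) →
    ∃ (z₁ : GQ → Pt A B) (t : Pt A B) (j : Qb →+* ℂ) (x : Qb) (μ : K) (u : ℤ_[pp]ˣ),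
      Rb.Cn n z₁ ∧ pp ^ n • t = 0 ∧ (∀ g ∈ In (insert l S : Finset ℕ), z₁ g = 0) ∧
      (∀ g k, z₁ (g * k) = z₁ g + ga g (z₁ k) + (χ g).val • ga g (nq A B l • z k + (ga k t - t))) ∧
      j x * w0 A B = P014T.Rk.Lw (al A B) (cS (insert l S) fun k => (W k).val) ∧
      ‖am μ - ι x‖ * (pp : ℝ) ^ n ≤ (pp : ℝ) ^ m ∧ Rc h P lg m n z₁ ((u * σ : ℤ_[pp]) * μ)
  mc : ∃ C : Finset ℕ, C.card ≤ m ∧ (∀ q ∈ C, q.Prime ∧ q ∉ S ∧ ¬ (pp : ℤ) ^ m ∣ nq A B q) ∧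
    ∀ g, Gp A B c g → ∀ b j, b + m < j → j + b + m ≤ n →
      (pp ^ 2) ^ j ≤ pp ^ b * sg g n j ((∏ q ∈ C, nq A B q) • z) →
      cz A B (S ∪ C) c n ≤ (pp ^ 2) ^ n * pp ^ (b + m) ∧
      (sg g n j ((∏ q ∈ C, nq A B q) • z) * cz A B (S ∪ C) c j : ℝ) =
        ((pp : ℝ) ^ 4) ^ j * ‖(σ : ℚ_[pp]) * α‖

/-- zeta elements exist at all levels; `α` is the value of the quotient in the main conjecture -/
def Kt (S : Finset ℕ) (α : ℚ_[pp]) : Prop :=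
  ∃ (c : GQ) (P : Ideal (𝓞 Qb)) (ι : Qb →+* ℂ_[pp]) (lg : Fx A B (dec P) →+ K) (σ : ℤ_[pp]) (ρ : ℚ)
    (m : ℕ), IsConj c ∧ Ov pp P ∧ Ind ι P ∧ Lk ι lg ∧ σ ≠ 0 ∧
    P014T.Rk.Lw (al A B) (cS S 1) = ρ * w0 A B ∧ ∀ n, ∃ z, Zt h S c P ι lg σ α ρ m n z

end

/-! ## rows -/

/-- the reduction type is seen by the representation -/
def ELC : Prop := ∀ (A B : ℤ) (h : El A B) (p : ℕ), p.Prime → p ≠ pp →
  (al A B p = 0 → al A B (p ^ 2) = 0 → No (mt (hq h)) p) ∧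
  (al A B p ^ 2 - al A B (p ^ 2) = p ∧ Gd (mt (hq h)) (al A B p) p ∨
    al A B p ^ 2 = al A B (p ^ 2) ∧ Mu (mt (hq h)) (al A B p) p)

/-- isogenies -/
def ISO : Prop := ∀ (A B A' B' : ℤ) (h : El A B) (h' : El A' B'), Ae A B A' B' →
  ∃ M : M2 ℤ_[pp], M.det ≠ 0 ∧ ∀ g, X4M.TE.mt (hq h) g * M = M * X4M.TE.mt (hq h') g

/-- **Kato's Euler system** -/
def KATO : Prop := ∀ N G a A B w I x y (h : P014T.Pu.ParY N a A B w I x y), RN N G a →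
  ∀ (S₀ : Finset ℕ) (e : ℤ), Pm S₀ → Lg h.disc N a → E2 h.disc e → e ≠ 0 →
    ∃ (S : Finset ℕ) (α : ℚ_[pp]), S₀ ⊆ S ∧ Pm S ∧ Kt h.disc S α ∧ ‖e * α‖ ≤ 1

/-- the same with systems of odd level -/
def KATO' : Prop := ∀ N G a A B w I x y (h : P014T.Pu.ParY N a A B w I x y), RN N G a →
  ∀ S₀ : Finset ℕ, Pm S₀ → Lg h.disc N a → Lp h.disc N a 2 →
    ∃ (S : Finset ℕ) (α : ℚ_[pp]), S₀ ⊆ S ∧ Pm S ∧ Kt h.disc S α ∧ ‖α‖ ≤ 1

/-- zeta elements move along isogenies -/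
def KTI : Prop := ∀ (A B A' B' : ℤ) (h : El A B) (h' : El A' B'), Ae A B A' B' →
  ∃ S₀, Pm S₀ ∧ ∀ S α, S₀ ⊆ S → Pm S → Kt h S α → Kt h' S α

/-- from the main conjecture to the formula -/
def BV (r : ℕ) : Prop := ∀ (A B : ℤ) (h : El A B), Ar A B r → ∃ S₀, Pm S₀ ∧ ∀ S α, S₀ ⊆ S → Pm S →
  Kt h S α → α ≠ 0 ∧ Bd (sI A B) S ∧ Dis (sI A B) S r α.valuation

/-- the discrepancy depends neither on the equation nor on `S` -/
def INV : Prop := ∀ (W : WeierstrassCurve ℤ) (A B : ℤ) u r s t S S' k v, W.Δ ≠ 0 →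
  Md (Wq W) A B u r s t → Bd W S → Bd (sI A B) S' → (Dis W S k v ↔ Dis (sI A B) S' k v)

end Vale.Agent.P014U.Top
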