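import Vale.Agent.P014U.Fin
import Vale.Agent.P014U.Gt.Elc
import Vale.Agent.P014U.Tv.Inv
import Vale.Agent.P014U.La.Kti
import Vale.Agent.P014U.Tp.Bv0
import Vale.Agent.P014U.Pl.All
import Vale.Agent.P014U.Ct.All

/-! # P014U: wiring at the odd prime -/

namespace Vale.Agent.P014U.Top

theorem bsdi_of (bs : P014T.Top.BSDE) (md : MODN) (lg : P014T.Top.LGU) (nv : P014T.Nv.NVD) : BSDI :=
  bsdi bs (chp md lg elc Ct.kato_all La.kti (bv0 md) (Pl.bv1_all md nv) Tv.inv)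
    (cln md elc Ct.kato_all' La.kti (bv0 md) (Pl.bv1_all md nv) Tv.inv)

end Vale.Agent.P014U.Top
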