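import Vale.Agent.P014U.Top

/-! # P014U: all primes together -/

set_option autoImplicit false
set_option linter.all false

namespace Vale.Agent.P014U.Top

open Vale.Agent.P014 Vale.Agent.P014T
open P004N (IsEll)
open Vale.Agent.P014T.Lc (Wq np)

theorem np_le (W : WeierstrassCurve ℤ) : np W 2 ≤ 5 := by
  have := Nat.card_le_card_of_injective (β := Option (ZMod 2 × ZMod 2))
    (fun P : (W.map (Int.castRingHom (ZMod 2))).toAffine.Point => match P with
      | .zero => none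
      | .some x y _ => some (x, y)) (by
    rintro (_ | ⟨x, y, h⟩) (_ | ⟨x', y', h'⟩) e
    · rfl
    · cases e
    · cases e
    · cases e
      rfl)
  simpa [np] using this

theorem val_int {p : ℕ} {q : ℚ} (h : ∃ n : ℤ, q = n) : 0 ≤ padicValRat p q := by
  obtain ⟨n, rfl⟩ := h
  rw [padicValRat.of_int]
  positivity

/-- **the target** -/
def BSDI : Prop := ∀ (W : WeierstrassCurve ℤ) (E : WeierstrassCurve ℚ) [E.IsElliptic],
  E = W.map (Int.castRingHom ℚ) → GlobalMinimal E →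
  ∀ L, IsEll E L → ∀ r : ℕ, r ≤ 1 → analyticOrderAt L 1 = r →
    Module.finrank ℤ E.toAffine.Point = r ∧ Finite (Sha E) ∧
    (∃ P : Fin r → E.toAffine.Point, IsBasisModTorsion E P) ∧
    ∀ P : Fin r → E.toAffine.Point, IsBasisModTorsion E P → ∃ ρ : ℚ,
      iteratedDeriv r L 1 / (r.factorial : ℂ) = (ρ : ℂ) * ((realPeriod E * regulator E P *
        (Nat.card (Sha E) : ℝ) * (tamagawaProduct E : ℝ) / (torsionOrder E : ℝ) ^ 2 : ℝ) : ℂ) ∧
      ρ ≠ 0 ∧ padicValRat 2 ρ = 0 ∧ 1 ≤ np W 2 ∧ np W 2 ≤ 5 ∧ (∃ n : ℤ, np W 2 * ρ = n) ∧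
      (∀ p : ℕ, p.Prime → p ≠ np W 2 ∨ Differentiable ℂ L → 0 ≤ padicValRat p ρ ∧
        (padicValRat p (ρ * Nat.card (Sha E)) ≤ 0 → padicValRat p ρ = 0)) ∧
      (np W 2 ≠ 3 ∧ np W 2 ≠ 5 ∨ Differentiable ℂ L → (∃ n : ℤ, ρ = n) ∧
        ((∃ k : ℕ, ρ * Nat.card (Sha E) = 2 ^ k) → ρ = 1))

theorem bsdi (bs : P014T.Top.BSDE) (chp : ∀ [Pp], CHP) (cln : ∀ [Pp], CLN) : BSDI := by
  rintro W E _ rfl hm L hL r r1 o
  obtain ⟨k1, k2, k3, k4⟩ := bs _ hm L hL r r1 o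
  have hΔ : W.Δ ≠ 0 := fun e => (Wq W).isUnit_Δ.ne_zero (by rw [WeierstrassCurve.map_Δ, e, map_zero])
  have hX := ((analyticOrderAt_eq_nat_iff_iteratedDeriv_eq_zero (hL.1 1 (by simp))).1 o).2
  have n0 := P014T.Lc.np_pos W Nat.prime_two
  have n5 := np_le W
  have key := fun P hP => Tq.fin n0.ne' hX k2 (k4 P hP) fun p a b =>
    @chp ⟨p, a, b⟩ W hΔ hm L hL r r1 o P hP
  refine ⟨k1, k3.elim fun P hP => (key P hP).1, k3, fun P hP => ?_⟩
  obtain ⟨f, ρ, r0, v, n, e⟩ := key P hP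
  have s0 : (Nat.card (Sha (Wq W)) : ℚ) ≠ 0 := Nat.cast_ne_zero.2 Nat.card_pos.ne'
  have ge : ∀ p : ℕ, p.Prime → p ≠ np W 2 ∨ Differentiable ℂ L → 0 ≤ padicValRat p ρ := by
    rintro p hp (c | d)
    · have := Fact.mk hp
      by_cases p2 : p = 2
      · rw [p2, v]
      have k := val_int (p := p) n
      rwa [padicValRat.mul (Nat.cast_ne_zero.2 n0.ne') r0, padicValRat.of_nat,
        padicValNat.eq_zero_of_not_dvd fun d => ?_, Nat.cast_zero, zero_add] at k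
      have := hp.two_le
      have := Nat.le_of_dvd n0 d
      have p4 : p ≠ 4 := fun z => by norm_num [z] at hp
      generalize np W 2 = m at *
      have : p ≤ 5 := by omega
      interval_cases m <;> interval_cases p <;> omega
    obtain ⟨-, ρ', -, -, n', e'⟩ := Tq.fin one_ne_zero hX k2 (k4 P hP) fun p a b =>
      @cln ⟨p, a, b⟩ W hΔ hm L ⟨d, hL.2⟩ r r1 o P hP
    rw [Nat.cast_one, one_mul, ← mul_right_cancel₀ s0 (Tq.quo hX e e')] at n'
    exact val_int n'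
  refine ⟨ρ, e, r0, v, n0, n5, n, fun p hp c => ⟨ge p hp c, fun le => ?_⟩, fun c => ?_⟩
  · have := Fact.mk hp
    have := ge p hp c
    rw [padicValRat.mul r0 s0, padicValRat.of_nat] at le
    omega
  obtain ⟨m, rfl⟩ : ∃ m : ℤ, ρ = m := Tq.den_one fun p hp => by
    by_cases p2 : p = 2
    · rw [p2, v]
    refine ge p hp (c.imp_left fun k z => ?_)
    have := hp.two_le
    have p4 : p ≠ 4 := fun z => by norm_num [z] at hp
    omega
  refine ⟨⟨m, rfl⟩, fun ⟨k, z⟩ => ?_⟩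
  have z' : m * Nat.card (Sha (Wq W)) = 2 ^ k := by exact_mod_cast z
  have m0 : 0 < m := pos_of_mul_pos_left ((pow_pos two_pos k).trans_eq z'.symm) (Int.natCast_nonneg _)
  lift m to ℕ using m0.le
  obtain ⟨j, -, rfl⟩ := (Nat.dvd_prime_pow Nat.prime_two).1
    (⟨_, by exact_mod_cast z'.symm⟩ : m ∣ 2 ^ k)
  rw [Int.cast_natCast, padicValRat.of_nat, padicValNat.prime_pow, Nat.cast_eq_zero] at v
  simp [v]

end Vale.Agent.P014U.Top
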