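import Vale.Agent.P014U.St
import Vale.Agent.P014U.Ig.Mat
import Vale.Agent.P014U.Tq.Lhu
import Vale.Agent.P014U.Tq.Fin
import Vale.Agent.P014T.Tp.Stat

/-! # P014U: the glue of the top level -/

set_option autoImplicit false
set_option linter.all false

open NumberField Matrix UpperHalfPlane
open scoped Classical

noncomputable section

namespace Vale.Agent.P014U.Top

open Vale.Agent.P014 (GlobalMinimal IsHasseWeil realPeriod torsionOrder shaPrimary tamagawaProduct)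
open Vale.Agent.P014T (IsBasisModTorsion regulator)
open Vale.Agent.P022 (GQ)
open Vale.Agent.P004F (hq M2)
open P004M.TE (al)
open P004N (RN IsEll cE)
open P014T.Lc (Wq tm np ep)
open P014T.Sm (Md)
open P014T.Top (LGU)
open Tq (Cm Pv)

variable [Pp]

namespace Li

variable {M X X' : M2 ℤ_[pp]} (hM : M.det ≠ 0)
include hM

theorem inj {v : Fin 2 → ℤ_[pp]} (h : M *ᵥ v = 0) : v = 0 :=
  by_contra fun k => hM (Matrix.exists_mulVec_eq_zero_iff.1 ⟨v, k, h⟩)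

theorem one (e : X * M = M * X') : X = 1 ↔ X' = 1 := by
  have k : ∀ Y : M2 ℤ_[pp], M.det • Y = 0 → Y = 0 := fun Y h => (smul_eq_zero.1 h).resolve_left hM
  refine ⟨fun h => sub_eq_zero.1 (k _ ?_), fun h => sub_eq_zero.1 (k _ ?_)⟩
  · rw [← one_mul (X' - 1), ← smul_mul_assoc, ← adjugate_mul, mul_assoc, mul_sub, ← e, h, one_mul,
      mul_one, sub_self, mul_zero]
  · rw [← mul_one (X - 1), ← mul_smul_comm, ← mul_adjugate, ← mul_assoc, sub_mul, e, h, one_mul,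
      mul_one, sub_self, zero_mul]

theorem tr (e : X * M = M * X') : X.trace = X'.trace := mul_left_cancel₀ hM (by
  have := congrArg (fun Y => (Y * M.adjugate).trace) e
  rwa [mul_assoc, mul_adjugate, trace_mul_cycle, adjugate_mul, mul_smul_comm, smul_mul_assoc,
    mul_one, one_mul, trace_smul, trace_smul] at this)

omit hM in
theorem vec (e : X * M = M * X') (v : Fin 2 → ℤ_[pp]) : X *ᵥ (M *ᵥ v) = M *ᵥ (X' *ᵥ v) := by
  rw [mulVec_mulVec, mulVec_mulVec, e]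

variable {r r' : GQ → M2 ℤ_[pp]} (e : ∀ g, r g * M = M * r' g) {t : ℤ} {p : ℕ}
include e

theorem no (h : No r p) : No r' p := fun P o v hv =>
  inj hM (h P o _ fun g k => by rw [vec (e g), hv g k])

theorem gd (h : Gd r t p) : Gd r' t p := fun P o =>
  ⟨fun g k => (one hM (e g)).1 ((h P o).1 g k), fun φ f => tr hM (e φ) ▸ (h P o).2 φ f⟩

theorem mu (h : Mu r t p) : Mu r' t p := fun P o =>
  ⟨(h P o).1.imp fun g k => ⟨k.1, fun a => k.2 ((one hM (e g)).2 a)⟩, fun v hv φ f =>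
    sub_eq_zero.1 (inj hM (by
      rw [mulVec_sub, ← vec (e φ), (h P o).2 _ (fun g k => by rw [vec (e g), hv g k]) φ f,
        mulVec_smul, sub_self]))⟩

end Li

/-- **row ISO** -/
theorem iso : ISO := fun _ _ _ _ h h' f => Ig.isog_mat (hq h) (hq h') f

variable {A B A' B' : ℤ} {h : El A B} {N p : ℕ} {G : ℍ → ℂ} {a : ℕ → ℤ} {e : ℤ}

theorem Lp.of (k : Lp h N a p) (h' : El A' B') (f : Ae A B A' B') : Lp h' N a p := by
  obtain ⟨M, hM, e⟩ := iso _ _ _ _ h h' f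
  exact k.imp (Li.no hM e) (Or.imp (And.imp_right (Li.gd hM e)) (And.imp_right (Li.mu hM e)))

theorem E2.of (k : E2 h e) (h' : El A' B') (f : Ae A B A' B') : E2 h' e := by
  obtain ⟨M, hM, e⟩ := iso _ _ _ _ h h' f
  exact k.imp (And.imp_left (Li.no hM e)) (Or.imp (Exists.imp fun _ => And.imp_left (Li.gd hM e))
    (Exists.imp fun _ => And.imp_left (Li.mu hM e)))

theorem lp_of (elc : ELC) (h : El A B) (rn : RN N G a) (hp : p.Prime) (p2 : p ≠ pp)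
    (k : Cm A B p a) : Lp h N a p := by
  have c := P004N.H461.pfCf N G a rn
  rcases k with ⟨a1, a2⟩ | ⟨a1, a2⟩
  · exact .inl ((elc A B h p hp p2).1 a1 a2)
  · right
    rw [a1]
    have p0 : (p : ℤ) ≠ 0 := by exact_mod_cast hp.ne_zero
    rcases (elc A B h p hp p2).2 with ⟨b1, b2⟩ | ⟨b1, b2⟩
    · refine .inl ⟨fun k => p0 ?_, b2⟩
      have := c.bad p hp k 1
      rw [pow_one] at this
      rw [← b1, ← a1, ← a2, this]
      ring
    · refine .inr ⟨by_contra fun k => p0 ?_, b2⟩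
      have := c.good p hp k 0
      rw [pow_zero, c.one, zero_add, zero_add, pow_one, a1, a2, ← b1] at this
      linear_combination this

variable {W : WeierstrassCurve ℤ} {u r s t : ℚ}

/-- the Euler factor at two divides the number of points modulo two -/
theorem el2 (elc : ELC) (h : El A B) (hΔ : W.Δ ≠ 0) (hm : GlobalMinimal (Wq W))
    (k : Md (Wq W) A B u r s t) : ∃ e, E2 h e ∧ e ∣ np W 2 := by
  obtain ⟨a1, a2⟩ := Tq.al_np hΔ hm k Nat.prime_two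
  obtain ⟨b1, b2⟩ := elc A B h 2 Nat.prime_two pp_ne_two.symm
  by_cases hb : ((2 : ℕ) : ℤ) ∣ W.Δ
  · rw [ep, if_pos hb] at a1 a2
    have m := (b2.resolve_left fun c => by omega).2
    rcases Tq.np_bad Nat.prime_two hb with c | c | c
    · have z : al A B 2 = 0 := by omega
      exact ⟨1, .inl ⟨b1 z (by rw [a2, z]; rfl), rfl⟩, one_dvd _⟩
    · have z : al A B 2 = 1 := by omega
      exact ⟨1, .inr (.inr ⟨1, z ▸ m, rfl, rfl⟩), one_dvd _⟩
    · have z : al A B 2 = -1 := by omega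
      exact ⟨-3, .inr (.inr ⟨-1, z ▸ m, rfl, rfl⟩), by rw [c]; decide⟩
  · rw [ep, if_neg hb] at a1 a2
    exact ⟨np W 2, .inr (.inl ⟨_, (b2.resolve_right fun c => by omega).2, by omega⟩), dvd_rfl⟩

theorem ex_bd (h : W.Δ ≠ 0) : Bd W (2 * pp * W.Δ).natAbs.primeFactors :=
  ⟨fun _ => Nat.prime_of_mem_primeFactors, fun p a b => Nat.mem_primeFactors.2
    ⟨a, Int.natCast_dvd.1 b, Int.natAbs_ne_zero.2
      (mul_ne_zero (mul_ne_zero two_ne_zero (Nat.cast_ne_zero.2 pp_ne)) h)⟩⟩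

/-- the words of the problem -/
theorem stat (inv : INV) (hΔ : W.Δ ≠ 0) (hm : GlobalMinimal (Wq W)) {L : ℂ → ℂ}
    (hE : IsEll (Wq W) L) (h : Md (Wq W) A B u r s t) {k c : ℕ} (hk : k ≤ 1) (hc : c ≠ 0)
    {α : ℚ_[pp]} (α0 : α ≠ 0) (le : ‖c * α‖ ≤ 1) (d : Di A B k α.valuation)
    {P : Fin k → (Wq W).toAffine.Point} (hP : IsBasisModTorsion (Wq W) P) : Pv (Wq W) L pp c P := by
  have := P014T.Top.Sa.ell hΔ
  obtain ⟨S', b', d⟩ := d
  have b := ex_bd hΔ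
  generalize (2 * pp * W.Δ).natAbs.primeFactors = S at b
  obtain ⟨M, Q, ρ, hM, o, hQ, fi, r0, v, e⟩ := (inv W A B u r s t S S' k _ hΔ h b b').2 d
  refine ⟨fi, ρ, r0, ?_, ?_⟩
  · rwa [Padic.norm_le_one_iff_val_nonneg, Padic.valuation_mul (Nat.cast_ne_zero.2 hc) α0, ← v,
      Padic.valuation_natCast, ← padicValRat.of_nat, ← padicValRat.mul (Nat.cast_ne_zero.2 hc) r0]
      at le
  obtain ⟨-, o', e'⟩ := P014T.Lk.dep (a := fun n => (Wq W).LFunction n)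
    ⟨Finset.prod_ne_zero_iff.2 fun p a => (b.1 p a).ne_zero, fun _ _ => rfl⟩ hE hM
  have pos : (∏ p ∈ S, (np W p / p : ℝ)) ≠ 0 := Finset.prod_ne_zero_iff.2 fun p a =>
    div_ne_zero (Nat.cast_ne_zero.2 (P014T.Lc.np_pos W (b.1 p a)).ne')
      (Nat.cast_ne_zero.2 (b.1 p a).ne_zero)
  rw [e' k (o' ▸ o.ge), Nat.primeFactors_prod b.1,
    Finset.prod_congr rfl fun p a => P014T.Lk.P1_np W hΔ hm (b.1 p a)] at e
  simp only [mul_div_assoc, Finset.prod_mul_distrib] at e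
  rw [P014T.Top.Sa.reg hk hP hQ, P014T.Lc.tam_prod W S fun p a c => b.2 p a (c.mul_left _)]
  refine mul_left_cancel₀ (Complex.ofReal_ne_zero.2 pos) (e.trans ?_)
  push_cast
  ring

/-- from the curve of the form to the curve -/
theorem core (kti : KTI) (b0 : BV 0) (b1 : BV 1) (h : El A B) (h' : El A' B') (f : Ae A' B' A B)
    {k : ℕ} (hk : k ≤ 1) (ar : Ar A B k) {T : ℚ_[pp] → Prop} (kato : ∀ S₀, Pm S₀ →
      ∃ S α, S₀ ⊆ S ∧ Pm S ∧ Kt h' S α ∧ T α) : ∃ α, α ≠ 0 ∧ T α ∧ Di A B k α.valuation := by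
  have bv : BV k := by
    obtain rfl | rfl : k = 0 ∨ k = 1 := by omega
    exacts [b0, b1]
  obtain ⟨S₁, p1, k1⟩ := kti A' B' A B h' h f
  obtain ⟨S₂, p2, k2⟩ := bv A B h ar
  obtain ⟨S, α, sub, pS, c, e⟩ := kato (S₁ ∪ S₂) (p1.union p2)
  rw [Finset.union_subset_iff] at sub
  obtain ⟨n, b, D⟩ := k2 S α sub.2 pS (k1 S α sub.1 pS c)
  exact ⟨α, n, e, S, b, D⟩

/-- the inequality up to the number of points modulo two -/
def CHP : Prop := ∀ (W : WeierstrassCurve ℤ), W.Δ ≠ 0 → GlobalMinimal (Wq W) → ∀ L,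
  IsEll (Wq W) L → ∀ k : ℕ, k ≤ 1 → analyticOrderAt L 1 = k →
    ∀ P : Fin k → (Wq W).toAffine.Point, IsBasisModTorsion (Wq W) P → Pv (Wq W) L pp (np W 2) P

/-- the inequality for an entire continuation -/
def CLN : Prop := ∀ (W : WeierstrassCurve ℤ), W.Δ ≠ 0 → GlobalMinimal (Wq W) → ∀ L,
  IsHasseWeil (Wq W) L → ∀ k : ℕ, k ≤ 1 → analyticOrderAt L 1 = k →
    ∀ P : Fin k → (Wq W).toAffine.Point, IsBasisModTorsion (Wq W) P → Pv (Wq W) L pp 1 P

theorem chp (md : MODN) (lgu : LGU) (elc : ELC) (kato : KATO) (kti : KTI) (b0 : BV 0) (b1 : BV 1)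
    (inv : INV) : CHP := by
  intro W hΔ hm L hL k hk o P hP
  have := P014T.Top.Sa.ell hΔ
  obtain ⟨A, B, u, r, s, t, m⟩ := P014T.Sm.ex_md (Wq W)
  obtain ⟨N, G, a, nf⟩ := md A B m.hD
  obtain ⟨A₁, B₁, w, I, x, y, py⟩ := P014T.Pu.ex_parY nf.rn
  have n1 : Nf A₁ B₁ N G a := ⟨nf.rn, py.mat⟩
  obtain ⟨e, e2, c, d⟩ := el2 elc m.hD hΔ hm m
  have n0 := (P014T.Lc.np_pos W Nat.prime_two).ne'
  obtain ⟨α, α0, le, D⟩ := core kti b0 b1 m.hD py.disc (n1.ae nf) hk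
    ⟨L, (P014T.Top.Sa.isEll m).1 hL, o⟩ fun S₀ p0 => kato N G a A₁ B₁ w I x y py nf.rn S₀ e p0
      (fun p hp p1 p2 => lp_of elc _ nf.rn hp p1
        (Tq.lhu py.disc nf.rn (lgu _ _ _ N G a n1) hp p2))
      (e2.of _ (nf.ae n1)) (left_ne_zero_of_mul (d ▸ Nat.cast_ne_zero.2 n0))
  refine stat inv hΔ hm hL m hk n0 α0 ?_ D hP
  rw [← Int.cast_natCast, d, Int.cast_mul, mul_right_comm, norm_mul]
  exact mul_le_one₀ le (norm_nonneg _) (Padic.norm_int_le_one c)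

theorem cln (md : MODN) (elc : ELC) (kato : KATO') (kti : KTI) (b0 : BV 0) (b1 : BV 1)
    (inv : INV) : CLN := by
  intro W hΔ hm L hL k hk o P hP
  have := P014T.Top.Sa.ell hΔ
  obtain ⟨A, B, u, r, s, t, m⟩ := P014T.Sm.ex_md (Wq W)
  obtain ⟨N, G, a, nf⟩ := md A B m.hD
  obtain ⟨A₁, B₁, w, I, x, y, py⟩ := P014T.Pu.ex_parY nf.rn
  have n1 : Nf A₁ B₁ N G a := ⟨nf.rn, py.mat⟩
  have lp : ∀ p : ℕ, p.Prime → p ≠ pp → Lp py.disc N a p := fun p hp p1 =>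
    (lp_of elc m.hD nf.rn hp p1 (Tq.lh2 hL m nf hp)).of _ (nf.ae n1)
  obtain ⟨α, α0, le, D⟩ := core kti b0 b1 m.hD py.disc (n1.ae nf) hk
    ⟨L, (P014T.Top.Sa.isEll m).1 (P014T.Lk.hw hL), o⟩ fun S₀ p0 =>
      kato N G a A₁ B₁ w I x y py nf.rn S₀ p0 (fun p hp p1 _ => lp p hp p1)
        (lp 2 Nat.prime_two pp_ne_two.symm)
  exact stat inv hΔ hm (P014T.Lk.hw hL) m hk one_ne_zero α0 (by simpa using le) D hP

end Vale.Agent.P014U.Top
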